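import Crest.Agent.N250.Or.Glob
import Crest.Agent.N250.Re.Basic
import Crest.Agent.N250.Br.Stm

/-!
Row 250, orientation leaf, part 3 (helper96): the oriented flow of a Prelude flow, the oriented
shrinker of a Prelude shrinker, `H` = level set mean curvature.
-/

set_option autoImplicit false
open MeasureTheory Set Filter Topology Function
open scoped ContDiff InnerProductSpace
open Crest.GeometryTopology.MCF

noncomputable section

namespace Crest.Agent.N250.Or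

/-- the moving surface defined by one function -/
def ofFun (M : Set ST) (Φ : ST → ℝ) : Mv where
  M := M
  n q := ‖gradX Φ q.1 q.2‖⁻¹ • gradX Φ q.1 q.2
  V q := -dT Φ q / ‖gradX Φ q.1 q.2‖

theorem gradX_of_fderiv {φ ψ : ST → ℝ} {q : ST} {c : ℝ} (hφ : DifferentiableAt ℝ φ q)
    (hψ : DifferentiableAt ℝ ψ q) (h : fderiv ℝ ψ q = c • fderiv ℝ φ q) :
    gradX ψ q.1 q.2 = c • gradX φ q.1 q.2 ∧ dT ψ q = c * dT φ q := by
  refine ⟨ext_inner_right ℝ fun v => ?_, ?_⟩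
  · rw [inner_gradX hψ, inner_smul_left, inner_gradX hφ, h]; simp
  · rw [dT_eq hψ, dT_eq hφ, h]; simp

theorem Rel.fderiv {V : Type*} [NormedAddCommGroup V] [NormedSpace ℝ V] {φ ψ : V → ℝ} {x : V}
    {s : ℝ} (h : Rel φ ψ x s) (hφ : DifferentiableAt ℝ φ x) (h0 : φ x = 0) :
    ∃ c : ℝ, 0 < c ∧ _root_.fderiv ℝ ψ x = c • _root_.fderiv ℝ (fun y => s * φ y) x := by
  obtain ⟨g, h1, h2, h3⟩ := h
  refine ⟨g x, h2, ?_⟩
  have h4 := ((h1.diff.hasFDerivAt.mul hφ.hasFDerivAt).const_mul s).congr_of_eventuallyEq h3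
  rw [h4.fderiv, (hφ.hasFDerivAt.const_mul s).fderiv, h0, zero_smul, add_zero, smul_comm]

theorem good_of_gradX {M W : Set ST} {φ : ST → ℝ} {p : ST} (hW : IsOpen W) (hp : p ∈ W)
    (hs : ContDiffOn ℝ ∞ φ W) (hne : gradX φ p.1 p.2 ≠ 0) (hm : ∀ q ∈ W, q ∈ M ↔ φ q = 0) :
    Good M φ p := by
  have h1 := SmN.of_on hW hs hp
  refine ⟨h1, fun _ h0 => hne (ext_inner_right ℝ fun v => ?_),
    (hW.eventually_mem hp).mono hm⟩
  rw [inner_gradX h1.diff, h0]; simp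

/-- a local defining function is, up to sign, compatible with the global orientation -/
theorem loc_of_good {M W : Set ST} {Φ φ : ST → ℝ} {p : ST} (hΦ : Good M Φ p) (hW : IsOpen W)
    (hp : p ∈ W) (hs : ContDiffOn ℝ ∞ φ W) (hne : ∀ q ∈ W, gradX φ q.1 q.2 ≠ 0)
    (hm : ∀ q ∈ W, q ∈ M ↔ φ q = 0) :
    ∃ (W' : Set ST) (s : ℝ), (s = 1 ∨ s = -1) ∧ p ∈ W' ∧ W' ⊆ W ∧
      (ofFun M Φ).Loc W' (fun q => s * φ q) := by
  obtain ⟨s, hs'⟩ := (good_of_gradX hW hp hs (hne p hp) hm).exists_rel hΦ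
  have hs1 : ((s : ℤ) : ℝ) = 1 ∨ ((s : ℤ) : ℝ) = -1 := by
    rcases Int.units_eq_one_or s with rfl | rfl <;> simp
  have hs0 : ((s : ℤ) : ℝ) ≠ 0 := by rcases hs1 with h | h <;> rw [h] <;> norm_num
  set σ : ℝ := ((s : ℤ) : ℝ)
  obtain ⟨W', h1, h2, h3⟩ := eventually_nhds_iff.1
    (hs'.eventually.and (hΦ.eventually.and (hW.eventually_mem hp)))
  have hd : ∀ q ∈ W', DifferentiableAt ℝ φ q := fun q hq => (SmN.of_on hW hs (h1 q hq).2.2).diff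
  have hg : ∀ q ∈ W', gradX (fun q => σ * φ q) q.1 q.2 = σ • gradX φ q.1 q.2 := fun q hq =>
    (gradX_of_fderiv (hd q hq) ((hd q hq).const_mul σ)
      ((hd q hq).hasFDerivAt.const_mul σ).fderiv).1
  have hne' : ∀ q ∈ W', gradX (fun q => σ * φ q) q.1 q.2 ≠ 0 := fun q hq => by
    rw [hg q hq]; exact smul_ne_zero hs0 (hne q (h1 q hq).2.2)
  have key : ∀ q ∈ W', q ∈ M → ∃ c : ℝ, 0 < c ∧
      gradX Φ q.1 q.2 = c • gradX (fun q => σ * φ q) q.1 q.2 ∧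
        dT Φ q = c * dT (fun q => σ * φ q) q := by
    intro q hq hM
    obtain ⟨c, hc, he⟩ := (h1 q hq).1.fderiv (hd q hq) ((hm q (h1 q hq).2.2).1 hM)
    exact ⟨c, hc, gradX_of_fderiv ((hd q hq).const_mul σ) (h1 q hq).2.1.sm.diff he⟩
  refine ⟨W', σ, hs1, h3, fun q hq => (h1 q hq).2.2, h2,
    contDiffOn_const.mul (hs.mono fun q hq => (h1 q hq).2.2), hne', fun q hq => ?_,
    fun q hq hM => ?_, fun q hq hM => ?_⟩
  · change q ∈ M ↔ _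
    rw [hm q (h1 q hq).2.2]; simp [hs0]
  · obtain ⟨c, hc, e1, -⟩ := key q hq hM
    change ‖gradX Φ q.1 q.2‖⁻¹ • gradX Φ q.1 q.2 = _
    have := norm_ne_zero_iff.2 (hne' q hq)
    rw [e1, norm_smul, smul_smul, Real.norm_of_nonneg hc.le]
    congr 1; field_simp
  · obtain ⟨c, hc, e1, e2⟩ := key q hq hM
    change -dT Φ q / ‖gradX Φ q.1 q.2‖ = _
    have := norm_ne_zero_iff.2 (hne' q hq)
    rw [e1, e2, norm_smul, Real.norm_of_nonneg hc.le]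
    field_simp

theorem lsmc_sign {φ : ST → ℝ} {s : ℝ} (hs : s = 1 ∨ s = -1) (x : E) (t : ℝ) :
    levelSetMeanCurv (fun q => s * φ q) x t = s * levelSetMeanCurv φ x t ∧
      gradX (fun q => s * φ q) x t = s • gradX φ x t ∧
      dT (fun q => s * φ q) (x, t) = s * dT φ (x, t) := by
  rcases hs with rfl | rfl
  · simp
  · have h1 : ∀ y, gradX (fun q => -1 * φ q) y t = -gradX φ y t := fun y => by
      simp only [gradX, gradient, neg_mul, one_mul, fderiv_fun_neg, map_neg]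
    refine ⟨?_, by rw [h1]; simp, by simp [dT, deriv.fun_neg]⟩
    simp only [levelSetMeanCurv, h1, norm_neg, smul_neg, fderiv_fun_neg]
    simp

/-- `H` is the level set mean curvature -/
theorem H_eq_lsmc {F : Mv} (hF : F.Reg) {W : Set ST} {φ : ST → ℝ} (h : F.Loc W φ) {p : ST}
    (hp : p ∈ W) (hM : p ∈ F.M) : F.H p = levelSetMeanCurv φ p.1 p.2 := by
  set N : ST → E := fun q => ‖gradX φ q.1 q.2‖⁻¹ • gradX φ q.1 q.2 with hN
  have hNd : DifferentiableAt ℝ N p :=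
    (h.sm_n.contDiffAt (h.isOpen.mem_nhds hp)).differentiableAt (by simp)
  set L := fderiv ℝ N p
  have hA : ∀ a, F.A a a p = L (F.PL p (ee a), 0) a := fun a => by
    have h1 := (EuclideanSpace.proj (𝕜 := ℝ) a).hasFDerivAt.comp p hNd.hasFDerivAt
    change F.td (F.nu a) p (F.PL p (ee a), 0) = _
    rw [hF.td_ext hM h1.differentiableAt ?_ (hF.tg_PL hM _), h1.fderiv]
    · rfl
    · filter_upwards [nhdsWithin_le_nhds (h.isOpen.mem_nhds hp), self_mem_nhdsWithin]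
        with q hq hqM
      change F.n q a = N q a
      rw [h.n_eq q hq hqM]
  have hn : ∀ w, ⟪F.n p, L w⟫_ℝ = 0 := fun w => by
    have h1 := hNd.hasFDerivAt.inner ℝ hNd.hasFDerivAt
    have h2 : (fun q => ⟪N q, N q⟫_ℝ) =ᶠ[𝓝 p] fun _ => 1 := by
      filter_upwards [h.isOpen.mem_nhds hp] with q hq
      rw [real_inner_self_eq_norm_sq, hN]
      simp only [norm_smul, norm_inv, norm_norm, inv_mul_cancel₀ (h.norm_pos hq).ne', one_pow]
    have h3 := congrArg (fun T : ST →L[ℝ] ℝ => T w)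
      (h1.unique ((hasFDerivAt_const (1:ℝ) p).congr_of_eventuallyEq h2))
    have h4 : N p = F.n p := (h.n_eq p hp hM).symm
    simp only [ContinuousLinearMap.comp_apply, ContinuousLinearMap.prod_apply,
      fderivInnerCLM_apply, h4, zero_apply] at h3
    rw [real_inner_comm (F.n p) (fderiv ℝ N p w)] at h3
    change ⟪F.n p, fderiv ℝ N p w⟫_ℝ = 0
    linarith
  have h5 : HasFDerivAt (fun y : E => N (y, p.2)) (L.comp (ContinuousLinearMap.inl ℝ E ℝ)) p.1 :=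
    HasFDerivAt.comp (g := N) (f := fun y : E => (y, p.2)) p.1 hNd.hasFDerivAt
      (hasFDerivAt_prodMk_left p.1 p.2)
  change (∑ a, F.A a a) p = LinearMap.trace ℝ E (fderiv ℝ (fun y : E => N (y, p.2)) p.1).toLinearMap
  rw [h5.fderiv, LinearMap.trace_eq_sum_inner _ (EuclideanSpace.basisFun (Fin 3) ℝ),
    Finset.sum_apply]
  have h6 : ∀ a, L (F.PL p (ee a), 0) a = L (ee a, 0) a - F.n p a * L (F.n p, 0) a := fun a => by
    have : ((F.PL p (ee a), 0) : ST) = (ee a, 0) - F.n p a • (F.n p, 0) := by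
      simp [Mv.PL, inner_ee]
    rw [this, map_sub, map_smul]; simp
  simp only [hA, h6, Finset.sum_sub_distrib]
  rw [← inner_eq_sum, hn, sub_zero]
  refine Finset.sum_congr rfl fun a _ => ?_
  rw [EuclideanSpace.basisFun_apply, real_inner_comm, inner_ee]
  rfl

/-- **Orientation of the Prelude flow.** -/
theorem exists_mv {M : ℝ → Set E} {T : ℝ} (hM : IsSmoothMCF M T) :
    ∃ (F : Mv) (Φ : ST → ℝ), F.IsMCF ∧ F.M = {p | p.2 ∈ Ioo 0 T ∧ p.1 ∈ M p.2} ∧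
      F.Proper (univ ×ˢ Ioo 0 T) ∧ ContDiffOn ℝ ∞ Φ (univ ×ˢ Ioo 0 T) ∧
      F.Loc (univ ×ˢ Ioo 0 T ∩ {q | gradX Φ q.1 q.2 ≠ 0}) Φ ∧
      ∀ q ∈ univ ×ˢ Ioo 0 T, (q ∈ F.M ↔ Φ q = 0) ∧ (q ∈ F.M → gradX Φ q.1 q.2 ≠ 0) := by
  obtain ⟨hcl, -, hloc⟩ := hM
  set K : Set ST := {p | p.2 ∈ Ioo 0 T ∧ p.1 ∈ M p.2} with hK
  set Ω : Set ST := univ ×ˢ Ioo 0 T with hΩ
  have hΩo : IsOpen Ω := isOpen_univ.prod isOpen_Ioo
  have hpr : ∀ p ∈ closure K, p ∈ Ω → p ∈ K := fun p hp hp2 =>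
    ⟨hp2.2, hcl p (closure_mono (t := track M T)
      (fun q hq => ⟨Ioo_subset_Ico_self hq.1, hq.2⟩) hp)
      (Ioo_subset_Ico_self hp2.2)⟩
  have hl : ∀ p ∈ K, ∃ (W : Set ST) (φ : ST → ℝ), IsOpen W ∧ p ∈ W ∧ W ⊆ Ω ∧
      ContDiffOn ℝ ∞ φ W ∧ (∀ q ∈ W, gradX φ q.1 q.2 ≠ 0) ∧ (∀ q ∈ W, q ∈ K ↔ φ q = 0) ∧
      ∀ q ∈ W, q ∈ K → dT φ q = ‖gradX φ q.1 q.2‖ * levelSetMeanCurv φ q.1 q.2 := by
    intro p hp
    obtain ⟨W, φ, h1, ⟨h2, h3, h4, h5⟩, h6⟩ := hloc p.2 (Ioo_subset_Ico_self hp.1) p.1 hp.2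
    refine ⟨W ∩ Ω, φ, h2.inter hΩo, ⟨h1, mem_univ _, hp.1⟩, inter_subset_right,
      h3.mono inter_subset_left, fun q hq => h4 q hq.1, fun q hq => ?_,
      fun q hq hq2 => h6 q hq.1 (Ioo_subset_Ico_self hq2.1) hq2.2⟩
    rw [← h5 q hq.1 (Ioo_subset_Ico_self hq.2.2)]
    exact ⟨fun h => h.2, fun h => ⟨hq.2.2, h⟩⟩
  obtain ⟨Φ, hΦ, hG⟩ := exists_global (M := K) hΩo (convex_univ.prod (convex_Ioo 0 T)) (by
    intro p hp
    by_cases hpK : p ∈ K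
    · obtain ⟨W, φ, h1, h2, -, h4, h5, h6, -⟩ := hl p hpK
      exact ⟨φ, good_of_gradX h1 h2 h4 (h5 p h2) h6⟩
    · refine ⟨fun _ => 1, SmN.of_contDiff contDiff_const p, fun h => absurd h one_ne_zero, ?_⟩
      filter_upwards [isClosed_closure.isOpen_compl.mem_nhds fun h => hpK (hpr p h hp)] with q hq
      exact ⟨fun h => absurd (subset_closure h) hq, fun h => absurd h one_ne_zero⟩)
  have hL : ∀ p ∈ K, ∃ (W : Set ST) (φ : ST → ℝ), p ∈ W ∧ (ofFun K Φ).Loc W φ ∧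
      dT φ p = ‖gradX φ p.1 p.2‖ * levelSetMeanCurv φ p.1 p.2 := by
    intro p hp
    obtain ⟨W, φ, h1, h2, h3, h4, h5, h6, h7⟩ := hl p hp
    obtain ⟨W', s, k1, k2, -, k4⟩ := loc_of_good (hG p (h3 h2)) h1 h2 h4 h5 h6
    obtain ⟨e1, e2, e3⟩ := lsmc_sign (φ := φ) k1 p.1 p.2
    refine ⟨W', _, k2, k4, ?_⟩
    rw [e1, e2, e3, h7 p h2 hp, norm_smul]
    rcases k1 with rfl | rfl <;> simp
  have hreg : (ofFun K Φ).Reg := fun p hp => by
    obtain ⟨W, φ, h1, h2, -⟩ := hL p hp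
    exact ⟨W, φ, h1, h2⟩
  have hmem : ∀ q ∈ Ω, q ∈ K ↔ Φ q = 0 := fun q hq => (hG q hq).mem.self_of_nhds
  refine ⟨ofFun K Φ, Φ, ⟨hreg, fun p hp => ?_⟩, rfl, hpr, hΦ, ⟨?_, hΦ.mono inter_subset_left,
    fun q hq => hq.2, fun q hq => hmem q hq.1, fun _ _ _ => rfl, fun _ _ _ => rfl⟩,
    fun q hq => ⟨hmem q hq, fun hqK h0 => ?_⟩⟩
  · obtain ⟨W, φ, h1, h2, h3⟩ := hL p hp
    have := (h2.norm_pos h1).ne'
    rw [H_eq_lsmc hreg h2 h1 hp, h2.V_eq p h1 hp, h3]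
    field_simp
  · exact (contDiffOn_gradX hΩo hΦ).continuousOn.isOpen_inter_preimage hΩo isOpen_ne
  · obtain ⟨W, φ, h1, h2, -⟩ := hL q hqK
    have h3 := h2.norm_n h1 hqK
    change ‖‖gradX Φ q.1 q.2‖⁻¹ • gradX Φ q.1 q.2‖ = 1 at h3
    rw [h0] at h3
    simp at h3

theorem orS_holds : Br.OrS := by
  intro M T hM
  obtain ⟨F, Φ, h1, h2, -, h4, h5, h6⟩ := exists_mv hM
  refine ⟨Φ, h4, fun p hp => ?_⟩
  have hp' : p ∈ (univ ×ˢ Ioo 0 T : Set ST) := ⟨mem_univ _, hp⟩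
  have e : p ∈ F.M ↔ p.1 ∈ M p.2 := by rw [h2]; exact ⟨fun h => h.2, fun h => ⟨hp, h⟩⟩
  refine ⟨e.symm.trans (h6 p hp').1, fun hpM => ?_⟩
  have hF := e.2 hpM
  have hne := (h6 p hp').2 hF
  refine ⟨hne, ?_⟩
  have h7 := h1.2 p hF
  have := (h5.norm_pos ⟨hp', hne⟩).ne'
  rw [H_eq_lsmc h1.1 h5 ⟨hp', hne⟩ hF, h5.V_eq p ⟨hp', hne⟩ hF] at h7
  field_simp at h7
  linarith

end Crest.Agent.N250.Or

end
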