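import Crest.Agent.N250.Or.Had

/-!
Row 250, orientation leaf, part 2 (helper96): a set that is locally a regular level set in an open
convex set is globally the regular zero set of one smooth function.
-/

set_option autoImplicit false

open Set Filter Topology TopologicalSpace
open scoped ContDiff Manifold

namespace Crest.Agent.N250.Or

/-- locally constant sign cocycles on a simply connected space are coboundaries -/
theorem cech_trivial {B ι : Type*} [TopologicalSpace B] [SimplyConnectedSpace B]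
    [LocallyPathConnectedSpace B] (U : ι → Set B) (hU : ∀ i, IsOpen (U i)) (idx : B → ι)
    (hidx : ∀ x, x ∈ U (idx x)) (c : ι → ι → B → ℤˣ) (hc0 : ∀ i, ∀ x ∈ U i, c i i x = 1)
    (hcc : ∀ i j, ContinuousOn (c i j) (U i ∩ U j))
    (hc3 : ∀ i j k, ∀ x ∈ U i ∩ U j ∩ U k, c j k x * c i j x = c i k x) :
    ∃ ε : ι → B → ℤˣ, (∀ i, ContinuousOn (ε i) (U i)) ∧
      ∀ i j, ∀ x ∈ U i ∩ U j, ε j x = c i j x * ε i x := by
  let Z : FiberBundleCore ι B ℤˣ :=
    { baseSet := U, isOpen_baseSet := hU, indexAt := idx, mem_baseSet_at := hidx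
      coordChange := fun i j x v => c i j x * v
      coordChange_self := fun i x hx v => by rw [hc0 i x hx, one_mul]
      continuousOn_coordChange := fun i j =>
        ((hcc i j).comp continuousOn_fst fun p hp => hp.1).mul continuousOn_snd
      coordChange_comp := fun i j k x hx v => by rw [← mul_assoc, hc3 i j k x hx] }
  have cov : IsCoveringMap Z.proj :=
    IsFiberBundle.isCoveringMap fun x => ⟨Z.localTriv (idx x), hidx x⟩
  obtain ⟨x0⟩ : Nonempty B := inferInstance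
  obtain ⟨s, ⟨-, hs⟩, -⟩ := cov.existsUnique_continuousMap_lifts (ContinuousMap.id B) x0
    ⟨x0, (1 : ℤˣ)⟩ rfl
  have hs1 : ∀ x, (s x).1 = x := fun x => congrFun hs x
  refine ⟨fun i x => (Z.localTriv i (s x)).2, fun i => ?_, fun i j x hx => ?_⟩
  · refine continuous_snd.comp_continuousOn
      ((Z.localTriv i).continuousOn.comp s.continuous.continuousOn fun x hx => ?_)
    rw [Z.mem_localTriv_source, hs1]
    exact hx
  · have h1 : x ∈ U (idx (s x).1) := by rw [hs1]; exact hidx x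
    have h2 := hc3 (idx (s x).1) i j x ⟨⟨h1, hx.1⟩, hx.2⟩
    change c (idx (s x).1) j (s x).1 * _ = c i j x * (c (idx (s x).1) i (s x).1 * _)
    rw [← mul_assoc]
    congr 1
    rw [hs1] at h2 ⊢
    exact h2.symm

variable {V : Type*} [NormedAddCommGroup V] [NormedSpace ℝ V]

/-- `φ` is a regular defining function of `M` near `p` -/
structure Good (M : Set V) (φ : V → ℝ) (p : V) : Prop where
  sm : SmN φ p
  ne : φ p = 0 → fderiv ℝ φ p ≠ 0
  mem : ∀ᶠ x in 𝓝 p, x ∈ M ↔ φ x = 0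

theorem Good.eventually {M : Set V} {φ : V → ℝ} {p : V} (h : Good M φ p) :
    ∀ᶠ q in 𝓝 p, Good M φ q := by
  have h1 : ∀ᶠ q in 𝓝 p, φ q = 0 → fderiv ℝ φ q ≠ 0 := by
    by_cases h0 : φ p = 0
    · exact ((h.sm.at.continuousAt_fderiv (by simp)).eventually_ne (h.ne h0)).mono
        fun q hq _ => hq
    · exact (h.sm.at.continuousAt.eventually_ne h0).mono fun q hq h1 => absurd h1 hq
  filter_upwards [h.sm.eventually, h1, h.mem.eventually_nhds] with q a b c using ⟨a, b, c⟩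

/-- `ψ = s g φ` near `x` with `g > 0` smooth -/
def Rel (φ ψ : V → ℝ) (x : V) (s : ℝ) : Prop :=
  ∃ g : V → ℝ, SmN g x ∧ 0 < g x ∧ ∀ᶠ y in 𝓝 x, ψ y = s * (g y * φ y)

theorem Rel.eventually {φ ψ : V → ℝ} {x : V} {s : ℝ} (h : Rel φ ψ x s) :
    ∀ᶠ y in 𝓝 x, Rel φ ψ y s := by
  obtain ⟨g, h1, h2, h3⟩ := h
  filter_upwards [h1.eventually, h1.at.continuousAt.eventually (lt_mem_nhds h2),
    h3.eventually_nhds] with y a b c using ⟨g, a, b, c⟩

theorem Rel.refl (φ : V → ℝ) (x : V) : Rel φ φ x 1 :=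
  ⟨fun _ => 1, SmN.of_contDiff contDiff_const x, one_pos, Eventually.of_forall fun y => by ring⟩

theorem Rel.trans {φ ψ χ : V → ℝ} {x : V} {s t : ℝ} (h : Rel φ ψ x s) (k : Rel ψ χ x t) :
    Rel φ χ x (t * s) := by
  obtain ⟨g, h1, h2, h3⟩ := h
  obtain ⟨g', k1, k2, k3⟩ := k
  refine ⟨fun y => g' y * g y, ?_, mul_pos k2 h2, ?_⟩
  · filter_upwards [h1, k1] with y a b using b.mul a
  · filter_upwards [h3, k3] with y a b
    rw [b, a]; ring

theorem Rel.unique {φ ψ : V → ℝ} {x : V} {s t : ℤˣ} (hd : φ x = 0 → fderiv ℝ φ x ≠ 0)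
    (h : Rel φ ψ x ((s : ℤ) : ℝ)) (k : Rel φ ψ x ((t : ℤ) : ℝ)) : s = t := by
  obtain ⟨g, h1, h2, h3⟩ := h
  obtain ⟨g', k1, k2, k3⟩ := k
  obtain ⟨y, a, b, c, d, e⟩ := ((frequently_ne hd).and_eventually (h3.and (k3.and
    ((h1.at.continuousAt.eventually (lt_mem_nhds h2)).and
      (k1.at.continuousAt.eventually (lt_mem_nhds k2)))))).exists
  have h4 : ((s : ℤ) : ℝ) * g y = ((t : ℤ) : ℝ) * g' y := by
    apply mul_right_cancel₀ a
    rw [mul_assoc, mul_assoc, ← b, ← c]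
  rcases Int.units_eq_one_or s with rfl | rfl <;> rcases Int.units_eq_one_or t with rfl | rfl
  · rfl
  · simp at h4; linarith
  · simp at h4; linarith
  · rfl

theorem Good.exists_rel [FiniteDimensional ℝ V] {M : Set V} {φ ψ : V → ℝ} {x : V}
    (h : Good M φ x) (k : Good M ψ x) : ∃ s : ℤˣ, Rel φ ψ x ((s : ℤ) : ℝ) := by
  obtain ⟨g, h1, h2, h3⟩ := ratio h.sm k.sm h.ne k.ne (by
    filter_upwards [h.mem, k.mem] with y a b using a.symm.trans b)
  rcases h2.lt_or_gt with h4 | h4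
  · refine ⟨-1, fun y => -g y, h1.mono fun y hy => hy.neg, by linarith, h3.mono fun y hy => ?_⟩
    rw [hy]; simp
  · exact ⟨1, g, h1, h4, h3.mono fun y hy => by rw [hy]; simp⟩

theorem Good.smul {M : Set V} {φ ψ : V → ℝ} {x : V} (h : Good M φ x) {c : ℝ} (hc : c ≠ 0)
    (e : ψ =ᶠ[𝓝 x] fun y => c * φ y) : Good M ψ x := by
  refine ⟨SmN.congr (h.sm.mono fun y hy => contDiffAt_const.mul hy) e, fun h0 => ?_, ?_⟩
  · have h1 : φ x = 0 := by
      have := e.self_of_nhds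
      rw [h0] at this
      exact (mul_eq_zero.1 this.symm).resolve_left hc
    rw [e.fderiv_eq, (h.sm.diff.hasFDerivAt.const_mul c).fderiv]
    exact smul_ne_zero hc (h.ne h1)
  · filter_upwards [h.mem, e] with y a b
    rw [a, b]; simp [hc]

/-- coherent choice of local defining functions -/
theorem exists_coherent [FiniteDimensional ℝ V] {Ω M : Set V} (hΩ : IsOpen Ω) (hcv : Convex ℝ Ω)
    (h : ∀ p ∈ Ω, ∃ φ, Good M φ p) :
    ∃ (U : Ω → Set Ω) (ψ : Ω → V → ℝ), (∀ i, IsOpen (U i)) ∧ (∀ i, i ∈ U i) ∧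
      (∀ i, ∀ x ∈ U i, Good M (ψ i) x) ∧ ∀ i j, ∀ x ∈ U i ∩ U j, Rel (ψ i) (ψ j) x 1 := by
  classical
  rcases Ω.eq_empty_or_nonempty with rfl | hne
  · exact ⟨fun _ => ∅, fun _ _ => 0, fun _ => isOpen_empty, fun i => i.2.elim,
      fun i => i.2.elim, fun i => i.2.elim⟩
  have := hcv.contractibleSpace hne
  have := hΩ.locallyPathConnectedSpace
  choose φ hφ using h
  set U : Ω → Set Ω := fun i => {x | Good M (φ i i.2) x} with hU
  have hUo : ∀ i, IsOpen (U i) := fun i => isOpen_iff_mem_nhds.2 fun x hx =>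
    continuous_subtype_val.continuousAt.eventually (Good.eventually hx)
  have hex : ∀ i j (x : Ω), ∃ s : ℤˣ, x ∈ U i ∩ U j → Rel (φ i i.2) (φ j j.2) x ((s : ℤ) : ℝ) := by
    intro i j x
    by_cases hx : x ∈ U i ∩ U j
    · obtain ⟨s, hs⟩ := Good.exists_rel hx.1 hx.2
      exact ⟨s, fun _ => hs⟩
    · exact ⟨1, fun h1 => absurd h1 hx⟩
  choose c hc using hex
  obtain ⟨ε, hε, hεc⟩ := cech_trivial U hUo id (fun x => hφ x x.2) c
    (fun i x hx => Rel.unique hx.ne (hc i i x ⟨hx, hx⟩) (by simpa using Rel.refl _ _))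
    (fun i j x hx => by
      refine ContinuousAt.continuousWithinAt ?_
      refine continuousAt_const.congr (f := fun _ => c i j x) ?_
      filter_upwards [continuous_subtype_val.continuousAt.eventually (hc i j x hx).eventually,
        ((hUo i).inter (hUo j)).mem_nhds hx] with y a b
      exact Rel.unique b.1.ne a (hc i j y b))
    (fun i j k x hx => Rel.unique hx.1.1.ne
      (by simpa using (hc i j x hx.1).trans (hc j k x ⟨hx.1.2, hx.2⟩))
      (hc i k x ⟨hx.1.1, hx.2⟩))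
  set ψ : Ω → V → ℝ := fun i y =>
    (if hy : y ∈ Ω then ((ε i ⟨y, hy⟩ : ℤ) : ℝ) else 0) * φ i i.2 y with hψ
  have hloc : ∀ i, ∀ x ∈ U i, ψ i =ᶠ[𝓝 (x : V)] fun y => ((ε i x : ℤ) : ℝ) * φ i i.2 y := by
    intro i x hx
    have h1 : ∀ᶠ y in 𝓝 x, ε i y = ε i x :=
      ((hε i).continuousAt ((hUo i).mem_nhds hx)).eventually
        (p := fun z => z = ε i x) (by simp [nhds_discrete])
    rw [← hΩ.isOpenEmbedding_subtypeVal.map_nhds_eq x, EventuallyEq, eventually_map]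
    filter_upwards [h1] with y hy
    simp [hψ, y.2, hy]
  have hne : ∀ s : ℤˣ, ((s : ℤ) : ℝ) ≠ 0 := fun s => by exact_mod_cast s.ne_zero
  have hsq : ∀ s : ℤˣ, ((s : ℤ) : ℝ) * ((s : ℤ) : ℝ) = 1 := fun s => by
    rcases Int.units_eq_one_or s with rfl | rfl <;> simp
  refine ⟨U, ψ, hUo, fun i => hφ i i.2, fun i x hx => Good.smul hx (hne _) (hloc i x hx),
    fun i j x hx => ?_⟩
  obtain ⟨g, h1, h2, h3⟩ := hc i j x hx
  refine ⟨g, h1, h2, ?_⟩
  filter_upwards [h3, hloc i x hx.1, hloc j x hx.2] with y a b d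
  rw [b, d, a, hεc i j x hx]
  push_cast
  linear_combination (g y * φ i i.2 y * ((ε i x : ℤ) : ℝ)) * hsq (c i j x)

/-- **Global defining function.** -/
theorem exists_global [FiniteDimensional ℝ V] {Ω M : Set V} (hΩ : IsOpen Ω) (hcv : Convex ℝ Ω)
    (h : ∀ p ∈ Ω, ∃ φ, Good M φ p) :
    ∃ Φ : V → ℝ, ContDiffOn ℝ ∞ Φ Ω ∧ ∀ p ∈ Ω, Good M Φ p := by
  classical
  obtain ⟨U, ψ, hU, hUi, hG, hR⟩ := exists_coherent hΩ hcv h
  let O : Opens V := ⟨Ω, hΩ⟩
  have : ProperSpace V := FiniteDimensional.proper ℝ V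
  have : LocallyCompactSpace O := hΩ.locallyCompactSpace
  obtain ⟨ρ, hρ⟩ := SmoothPartitionOfUnity.exists_isSubordinate (ι := Ω) (M := O) 𝓘(ℝ, V)
    isClosed_univ U hU (fun x _ => mem_iUnion.2 ⟨x, hUi x⟩)
  set Φ : V → ℝ := fun y => if hy : y ∈ Ω then ∑ᶠ i, ρ i ⟨y, hy⟩ • ψ i y else 0 with hΦ
  have hΦe : ∀ x : O, Φ x = ∑ᶠ i, ρ i x • ψ i x := fun x => dif_pos x.2
  have hsm : ∀ p ∈ Ω, ContDiffAt ℝ ∞ Φ p := by
    intro p hp
    have h1 : ContMDiff 𝓘(ℝ, V) 𝓘(ℝ) ∞ fun x : O => ∑ᶠ i, ρ i x • ψ i x :=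
      ρ.contMDiff_finsum_smul fun i x hx => contMDiffAt_subtype_iff.2
        (hG i x (hρ i hx)).sm.at.contMDiffAt
    have h2 : ContMDiffAt 𝓘(ℝ, V) 𝓘(ℝ) ∞ (fun x : O => Φ x) ⟨p, hp⟩ := by
      simp only [hΦe]; exact h1 _
    exact (contMDiffAt_subtype_iff.1 h2).contDiffAt
  have hsn : ∀ p ∈ Ω, SmN Φ p := fun p hp =>
    (hΩ.eventually_mem hp).mono fun y hy => hsm y hy
  have hmem : ∀ i (x : O), ρ i x ≠ 0 → x ∈ U i := fun i x hx => hρ i (subset_tsupport _ hx)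
  -- the key inequality
  have key : ∀ i (x : O), ρ i x * ψ i x ^ 2 ≤ ψ i x * Φ x ∨ ρ i x = 0 := by
    intro i x
    by_cases hi : ρ i x = 0
    · exact Or.inr hi
    left
    have hfin : (Function.support fun j => ρ j x).Finite := ρ.locallyFinite.point_finite x
    have hf2 : (Function.support fun j => ρ j x • ψ j x).Finite :=
      hfin.subset fun j hj => left_ne_zero_of_smul hj
    rw [hΦe, mul_finsum]
    have h3 := single_le_finsum i (f := fun j => ψ i x * (ρ j x • ψ j x))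
      (hf2.subset fun j hj => right_ne_zero_of_mul hj) (fun j => by
        by_cases hj : ρ j x = 0
        · simp [hj]
        · obtain ⟨g, -, h2, h3⟩ := hR i j x ⟨hmem i x hi, hmem j x hj⟩
          have h4 := ρ.nonneg j x
          rw [h3.self_of_nhds, smul_eq_mul]
          have : ψ i x * (ρ j x * (1 * (g x * ψ i x))) = ρ j x * g x * ψ i x ^ 2 := by ring
          rw [this]; positivity)
    refine le_trans (le_of_eq ?_) h3
    simp only [smul_eq_mul]; ring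
  have hz : ∀ p ∈ Ω, p ∈ M ↔ Φ p = 0 := by
    intro p hp
    obtain ⟨i, hi⟩ := ρ.exists_pos_of_mem (x := ⟨p, hp⟩) (mem_univ _)
    constructor
    · intro hM
      rw [show Φ p = _ from hΦe ⟨p, hp⟩]
      refine finsum_eq_zero_of_forall_eq_zero fun j => ?_
      by_cases hj : ρ j ⟨p, hp⟩ = 0
      · simp [hj]
      · rw [(hG j _ (hmem j _ hj)).mem.self_of_nhds.1 hM, smul_zero]
    · intro h0
      have h1 := (key i ⟨p, hp⟩).resolve_right hi.ne'
      rw [show Φ (⟨p, hp⟩ : O) = 0 from h0, mul_zero] at h1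
      refine (hG i _ (hmem i _ hi.ne')).mem.self_of_nhds.2 ?_
      have h2 : ψ i p ^ 2 ≤ 0 := by
        by_contra h3
        exact absurd h1 (not_le.2 (mul_pos hi (not_le.1 h3)))
      exact pow_eq_zero_iff (two_ne_zero) |>.1 (le_antisymm h2 (sq_nonneg _))
  refine ⟨Φ, fun p hp => (hsm p hp).contDiffWithinAt, fun p hp => ⟨hsn p hp, fun h0 hd => ?_,
    (hΩ.eventually_mem hp).mono fun y hy => hz y hy⟩⟩
  obtain ⟨i, hi⟩ := ρ.exists_pos_of_mem (x := ⟨p, hp⟩) (mem_univ _)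
  have hGi := hG i _ (hmem i _ hi.ne')
  have hψ0 : ψ i p = 0 := hGi.mem.self_of_nhds.1 ((hz p hp).2 h0)
  refine hGi.ne hψ0 (HasFDerivAt.fderiv ?_)
  have h1 : HasFDerivAt Φ (0 : V →L[ℝ] ℝ) p := hd ▸ (hsn p hp).diff.hasFDerivAt
  rw [hasFDerivAt_iff_isLittleO] at h1 ⊢
  refine Asymptotics.IsBigO.trans_isLittleO ?_ h1
  refine Asymptotics.IsBigO.of_bound (2 / ρ i ⟨p, hp⟩) ?_
  have h2 : ∀ᶠ y : O in 𝓝 ⟨p, hp⟩, ρ i ⟨p, hp⟩ / 2 < ρ i y :=
    (ρ i).contMDiff.continuous.continuousAt.eventually (lt_mem_nhds (by linarith))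
  have h3 := hΩ.isOpenEmbedding_subtypeVal.map_nhds_eq ⟨p, hp⟩
  change map _ _ = 𝓝 p at h3
  change ∀ᶠ y in 𝓝 p, _
  rw [← h3, eventually_map]
  filter_upwards [h2] with y hy
  change ρ i ⟨p, hp⟩ / 2 < ρ i y at hy
  have h4 := (key i y).resolve_right (by linarith : ρ i y ≠ 0)
  change ‖ψ i y - ψ i p - 0‖ ≤ _ * ‖Φ y - Φ p - 0‖
  rw [hψ0, h0]
  simp only [sub_zero, Real.norm_eq_abs]
  have h5 : ρ i y * |ψ i y| ^ 2 ≤ |ψ i y| * |Φ y| := by
    rw [sq_abs, ← abs_mul]; exact h4.trans (le_abs_self _)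
  rcases (abs_nonneg (ψ i y)).eq_or_lt with h6 | h6
  · rw [← h6]; positivity
  · have h7 : ρ i y * |ψ i y| ≤ |Φ y| := by
      by_contra h8
      nlinarith
    rw [div_mul_eq_mul_div, le_div_iff₀ hi]
    nlinarith

end Crest.Agent.N250.Or
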